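import Vale.Agent.P141.H37.Kkt

/-!
# P141, line (S), (III): two facts on the projection on `Kset S c`

* `IsProj.energy_le`: if the tests are stable under the restriction to the complement of `G`, the
  energy on `G` of the projection is at most the energy on `G` of the function (line energies,
  `G` a line);
* `IsProj.price_le`: a seminorm which is at most `P c a` at every test `a` is at most
  `P ⟪F - V, V⟫` at the residual `F - V` (no representation of the residual).
-/

namespace Vale.Agent.P141.H552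

open Set RealInnerProductSpace Vale.Agent.P141.H37

/-! ### The price of the residual -/

section price

variable {E : Type*} [NormedAddCommGroup E] [InnerProductSpace ℝ E] [FiniteDimensional ℝ E]

/-- norming functional of a seminorm, finite dimension -/
theorem exists_norming (p : Seminorm ℝ E) (x : E) :
    ∃ φ : E, ⟪x, φ⟫ = p x ∧ ∀ y, ⟪y, φ⟫ ≤ p y := by
  classical
  obtain ⟨g, h1, h2⟩ : ∃ g : E →ₗ[ℝ] ℝ, g x = p x ∧ ∀ y, g y ≤ p y := by
    by_cases hx : x = 0
    · refine ⟨0, by simp [hx], fun y => by simp⟩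
    · let f : E →ₗ.[ℝ] ℝ := LinearPMap.mkSpanSingleton x (p x) hx
      obtain ⟨g, hg, hg2⟩ := exists_extension_of_le_sublinear f (fun y => p y)
        (fun c hc y => by
          rw [map_smul_eq_mul, Real.norm_eq_abs, abs_of_pos hc])
        (fun y z => map_add_le_add p y z)
        (fun y => by
          obtain ⟨y, hy⟩ := y
          have hy' : y ∈ Submodule.span ℝ {x} := hy
          obtain ⟨a, rfl⟩ := Submodule.mem_span_singleton.1 hy'
          have e : f ⟨a • x, hy⟩ = a • p x :=
            LinearPMap.mkSpanSingleton'_apply x (p x) _ a hy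
          rw [e]
          change a • p x ≤ p (a • x)
          rw [map_smul_eq_mul, smul_eq_mul, Real.norm_eq_abs]
          exact mul_le_mul_of_nonneg_right (le_abs_self a) (apply_nonneg p x))
      refine ⟨g, ?_, hg2⟩
      have hm : x ∈ f.domain := Submodule.mem_span_singleton_self x
      have := hg ⟨x, hm⟩
      have e : f ⟨x, hm⟩ = p x := LinearPMap.mkSpanSingleton_apply ℝ ℝ hx (p x)
      exact this.trans e
  let G : E →L[ℝ] ℝ := LinearMap.toContinuousLinearMap g
  refine ⟨(InnerProductSpace.toDual ℝ E).symm G, ?_, fun y => ?_⟩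
  · rw [real_inner_comm, InnerProductSpace.toDual_symm_apply]
    exact h1
  · rw [real_inner_comm, InnerProductSpace.toDual_symm_apply]
    exact h2 y

/-- **Price of the residual.** -/
theorem IsProj.price_le {S : Set E} {c : E → ℝ} {F V : E} (h : IsProj (Kset S c) F V)
    (p : Seminorm ℝ E) {P : ℝ} (hP : 0 < P) (hp : ∀ a ∈ S, p a ≤ P * c a) :
    p (F - V) ≤ P * ⟪F - V, V⟫ := by
  obtain ⟨φ, h1, h2⟩ := exists_norming p (F - V)
  have hW : (P⁻¹ • φ) ∈ Kset S c := by
    intro a ha
    rw [real_inner_comm, real_inner_smul_right]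
    have := (h2 a).trans (hp a ha)
    rw [inv_mul_le_iff₀ hP]
    exact this
  have h3 := h.var _ hW
  rw [inner_sub_right, real_inner_smul_right, h1] at h3
  have h4 : P⁻¹ * p (F - V) ≤ ⟪F - V, V⟫ := by linarith
  rwa [inv_mul_le_iff₀ hP] at h4

omit [FiniteDimensional ℝ E] in
/-- the residual pairing is at most a quarter of the energy -/
theorem inner_residual_le (F V : E) : ⟪F - V, V⟫ ≤ ‖F‖ ^ 2 / 4 := by
  have h1 : ⟪F - V, V⟫ = ⟪F, V⟫ - ‖V‖ ^ 2 := by
    rw [inner_sub_left, real_inner_self_eq_norm_sq]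
  have h2 := real_inner_le_norm F V
  rw [h1]
  nlinarith [sq_nonneg (‖F‖ / 2 - ‖V‖)]

theorem IsProj.price_le' {S : Set E} {c : E → ℝ} {F V : E} (h : IsProj (Kset S c) F V)
    (p : Seminorm ℝ E) {P : ℝ} (hP : 0 < P) (hp : ∀ a ∈ S, p a ≤ P * c a) :
    p (F - V) ≤ P * (‖F‖ ^ 2 / 4) :=
  (IsProj.price_le h p hP hp).trans (mul_le_mul_of_nonneg_left (inner_residual_le F V) hP.le)

end price

/-! ### Energies on sets which the tests respect -/

section energy

variable {X : Type*} [Fintype X]

open Classical in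
/-- the restriction to a set of points -/
noncomputable def rs (G : Set X) (a : EuclideanSpace ℝ X) : EuclideanSpace ℝ X :=
  WithLp.toLp 2 fun x => if x ∈ G then a x else 0

omit [Fintype X] in
open Classical in
theorem rs_apply (G : Set X) (a : EuclideanSpace ℝ X) (x : X) :
    rs G a x = if x ∈ G then a x else 0 := rfl

theorem inner_eq_sum (a b : EuclideanSpace ℝ X) : ⟪a, b⟫ = ∑ x, a x * b x := by
  rw [PiLp.inner_apply]
  exact Finset.sum_congr rfl fun x _ => by simp [mul_comm]

theorem inner_rs (G : Set X) (a b : EuclideanSpace ℝ X) : ⟪rs G a, b⟫ = ⟪a, rs G b⟫ := by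
  classical
  rw [inner_eq_sum, inner_eq_sum]
  refine Finset.sum_congr rfl fun x _ => ?_
  rw [rs_apply, rs_apply]
  split_ifs <;> simp

omit [Fintype X] in
theorem sub_rs (G : Set X) (a : EuclideanSpace ℝ X) : a - rs G a = rs Gᶜ a := by
  classical
  ext x
  simp only [PiLp.sub_apply, rs_apply, mem_compl_iff]
  by_cases hx : x ∈ G <;> simp [hx]

/-- **Energy on `G`**: the tests are stable under the restriction to the complement of `G`. -/
theorem IsProj.energy_le {S : Set (EuclideanSpace ℝ X)} {c : EuclideanSpace ℝ X → ℝ}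
    {F V : EuclideanSpace ℝ X} (h : IsProj (Kset S c) F V) (G : Finset X)
    (hS : ∀ W ∈ Kset S c, ∀ a ∈ S, ⟪W, rs (↑G : Set X)ᶜ a⟫ ≤ c a) :
    ∑ x ∈ G, V x ^ 2 ≤ ∑ x ∈ G, F x * V x ∧ ∑ x ∈ G, V x ^ 2 ≤ ∑ x ∈ G, F x ^ 2 := by
  classical
  have hW : V - rs (↑G : Set X) V ∈ Kset S c := by
    intro a ha
    rw [sub_rs, inner_rs]
    exact hS V h.mem a ha
  have h1 := h.var _ hW
  have h2 : V - rs (↑G : Set X) V - V = - rs (↑G : Set X) V := by abel
  rw [h2, inner_neg_right] at h1
  have h3 : ⟪F - V, rs (↑G : Set X) V⟫ = ∑ x ∈ G, (F x * V x - V x ^ 2) := by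
    rw [inner_eq_sum]
    simp only [PiLp.sub_apply, rs_apply, Finset.mem_coe, mul_ite, mul_zero]
    rw [Finset.sum_ite_mem, Finset.univ_inter]
    exact Finset.sum_congr rfl fun x _ => by ring
  have h4 : ∑ x ∈ G, V x ^ 2 ≤ ∑ x ∈ G, F x * V x := by
    rw [h3, Finset.sum_sub_distrib] at h1
    linarith
  refine ⟨h4, ?_⟩
  have h5 : ∑ x ∈ G, F x * V x ≤ ∑ x ∈ G, (F x ^ 2 + V x ^ 2) / 2 :=
    Finset.sum_le_sum fun x _ => by nlinarith [sq_nonneg (F x - V x)]
  rw [← Finset.sum_div, Finset.sum_add_distrib] at h5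
  linarith

end energy

end Vale.Agent.P141.H552
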